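import Vale.Agent.KK.RG.Main

/-!
# Extensions of embeddings: definitions

`F` is a pattern graph on `W`, `H` a host graph on `V`. For vertex sets `S ⊆ T` of the pattern,
`extEdges F S T` is the set of edges of `F` inside `T` that are not inside `S`, and
`Ext F H S T ψ` is the set of maps `φ : W → V` that agree with `ψ` off `T \ S`, are injective
on `T`, and send every edge of `extEdges F S T` to an edge of `H`.
`wt n r F S T = n ^ |T \ S| * r ^ |extEdges F S T|` is the expected number of such extensions
at density `r`.
-/

namespace Vale.Agent.KK.LS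

open Finset SimpleGraph

variable {V W : Type*} [Fintype V] [Fintype W] [DecidableEq W]

open Classical in
/-- The edges of `F` inside `T` that are not inside `S`. -/
noncomputable def extEdges (F : SimpleGraph W) (S T : Finset W) : Finset (Sym2 W) :=
  univ.filter (fun e => e ∈ F.edgeSet ∧ (∀ v ∈ e, v ∈ T) ∧ ¬ ∀ v ∈ e, v ∈ S)

open Classical in
/-- The extensions of `ψ` from `S` to `T`. -/
noncomputable def Ext (F : SimpleGraph W) (H : SimpleGraph V) (S T : Finset W) (ψ : W → V) :
    Finset (W → V) :=
  univ.filter (fun φ => (∀ w, w ∉ T \ S → φ w = ψ w) ∧ Set.InjOn φ (T : Set W) ∧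
    ∀ x y, F.Adj x y → x ∈ T → y ∈ T → (x ∉ S ∨ y ∉ S) → H.Adj (φ x) (φ y))

/-- The expected number of extensions from `S` to `T` at density `r` in a host on `n`
vertices. -/
noncomputable def wt (n : ℕ) (r : ℝ) (F : SimpleGraph W) (S T : Finset W) : ℝ :=
  (n : ℝ) ^ (T \ S).card * r ^ (extEdges F S T).card

/-- Every extension problem strictly between `X` and `T` (and the one from `X` itself) has
expected count below one. -/
def Rigid (n : ℕ) (r : ℝ) (F : SimpleGraph W) (X T : Finset W) : Prop :=
  ∀ X', X ⊆ X' → X' ⊂ T → wt n r F X' T < 1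

open Classical in
/-- The vertices of `S` with a neighbour in `T \ S`. -/
noncomputable def att (F : SimpleGraph W) (S T : Finset W) : Finset W :=
  S.filter (fun y => ∃ z ∈ T \ S, F.Adj y z)

open Classical in
/-- The union of the images of the extension edges over all extensions. -/
noncomputable def unionEdges (F : SimpleGraph W) (H : SimpleGraph V) (S T : Finset W)
    (ψ : W → V) : Finset (Sym2 V) :=
  (Ext F H S T ψ).biUnion (fun φ => (extEdges F S T).image (Sym2.map φ))

/-- The weak form of the expectation hypothesis: every set `D` of edges of `H` satisfies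
`1 ≤ n ^ |V(D)| * q ^ |D|`. -/
def WeakHyp (n : ℕ) (H : SimpleGraph (Fin n)) (q : ℝ) : Prop :=
  ∀ D : Finset (Sym2 (Fin n)), (∀ e ∈ D, e ∈ H.edgeSet) →
    1 ≤ (n : ℝ) ^ (Vale.Agent.KK.RG.vset D).card * q ^ D.card

end Vale.Agent.KK.LS
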