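import Vale.Agent.KK.LS.Main
import Vale.Agent.Lib.P064.ls.Graded

/-!
# A density-graded bound for the threshold

If `n * p_E(n,H) ^ k ≥ 3 log n` and `log n ≤ M ^ k` for an integer `k ≥ 1` and a real `M ≥ 1`,
then `p_c(n,H) ≤ 10^5 * M^2 * p_E(n,H) * log n`.
-/

namespace Vale.Agent.KK.LS

open SimpleGraph Finset
open Vale.Agent.KK Vale.Agent.KK.PP Vale.Agent.KK.PF Vale.Agent.KK.RG Vale.Agent.Lib.P064
open Vale.Agent.Lib.P064.LS

/-- The labelled copy-count inequality with `L = 240 M ^ 2`, for an admissible density `p` with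
`n * p ^ k ≥ 3 log n`, where `log n ≤ M ^ k`. -/
theorem graded_hlab {n : ℕ} (hn : 2 ≤ n) (H : SimpleGraph (Fin n)) (k : ℕ) (hk1 : 1 ≤ k)
    (M : ℝ) (hM : 1 ≤ M) (hk : Real.log n ≤ M ^ k)
    (p : ℝ) (hp0 : 0 ≤ p) (hp1 : p ≤ 1)
    (hpk : 3 * Real.log n ≤ n * p ^ k)
    (hp : ∀ H' : H.Subgraph, (1 : ℝ) / 2 ≤
      ((⊤ : SimpleGraph (Fin n)).copyCount H'.coe : ℝ) * p ^ H'.edgeSet.ncard)
    (F : SimpleGraph (Fin n)) :
    (H.labelledCopyCount F : ℝ) ≤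
      (n.factorial : ℝ) * (min 1 (240 * M ^ 2 * (2 * p))) ^ F.edgeSet.ncard := by
  classical
  have hl2 : (0.6931471803 : ℝ) < Real.log 2 := Real.log_two_gt_d9
  have hnR : (2 : ℝ) ≤ n := by exact_mod_cast hn
  have hnpos : (0 : ℝ) < n := by linarith
  have hlogn : Real.log 2 ≤ Real.log n := Real.log_le_log (by norm_num) hnR
  have hM2 : (1 : ℝ) ≤ M ^ 2 := one_le_pow₀ hM
  have hpkle : p ^ k ≤ p := by
    calc p ^ k ≤ p ^ 1 := pow_le_pow_of_le_one hp0 hp1 hk1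
      _ = p := pow_one p
  have hpn : 1 ≤ (n : ℝ) * p := by
    have h1 : (n : ℝ) * p ^ k ≤ n * p := mul_le_mul_of_nonneg_left hpkle hnpos.le
    linarith
  have hppos : 0 < p := by
    rcases hp0.lt_or_eq with h | h
    · exact h
    · exfalso
      rw [← h, mul_zero] at hpn
      linarith
  have hyp : SubgraphsExpected n H (2 * p) := subgraphsExpected_two_mul H p hp0 hp
  by_cases h4 : 2 * (2 * p) ≤ 1
  · have hreg : ∀ j : ℕ, (n : ℝ) * (2 * (2 * p)) ^ j < 3 * Real.log n → Real.log n ≤ M ^ j := by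
      intro j hj
      by_cases hjk : j ≤ k
      · exfalso
        have h1 : p ^ k ≤ p ^ j := pow_le_pow_of_le_one hp0 hp1 hjk
        have h2 : p ^ j ≤ (2 * (2 * p)) ^ j := pow_le_pow_left₀ hp0 (by linarith) j
        have h3 : (n : ℝ) * p ^ k ≤ n * (2 * (2 * p)) ^ j :=
          mul_le_mul_of_nonneg_left (h1.trans h2) hnpos.le
        linarith
      · rw [not_le] at hjk
        exact hk.trans (pow_le_pow_right₀ hM hjk.le)
    have key := lsg_labelled_desc hn H (q := 2 * p) (by positivity) h4 (by nlinarith) hyp M hM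
      hreg F
    have e : 240 * (2 * p) * M ^ 2 = 240 * M ^ 2 * (2 * p) := by ring
    rw [e] at key
    exact key
  · rw [not_le] at h4
    have h1 : (1 : ℝ) ≤ 240 * M ^ 2 * (2 * p) := by nlinarith
    rw [min_eq_left h1, one_pow, mul_one]
    have h2 := labelled_le_top H F
    rw [labelledCopyCount_top, Fintype.card_fin, Nat.descFactorial_self] at h2
    exact_mod_cast h2

/-- The core of the graded bound: if every admissible density `p` satisfies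
`n * p ^ k ≥ 3 log n`, and `log n ≤ M ^ k`, then `p_c ≤ 10^5 * M^2 * p_E * log n`. -/
theorem graded_core {n : ℕ} (hn : 2 ≤ n) (H : SimpleGraph (Fin n)) (k : ℕ) (hk1 : 1 ≤ k)
    (M : ℝ) (hM : 1 ≤ M) (hk : Real.log n ≤ M ^ k)
    (hall : ∀ p : ℝ, 0 ≤ p → p ≤ 1 → (∀ H' : H.Subgraph, (1 : ℝ) / 2 ≤
        ((⊤ : SimpleGraph (Fin n)).copyCount H'.coe : ℝ) * p ^ H'.edgeSet.ncard) →
      3 * Real.log n ≤ n * p ^ k) :
    sInf {p : ℝ | 0 ≤ p ∧ p ≤ 1 ∧ (1 : ℝ) / 2 ≤ ∑ G : SimpleGraph (Fin n),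
        Set.indicator {G | H ⊑ G}
          (fun G => p ^ G.edgeSet.ncard * (1 - p) ^ (n.choose 2 - G.edgeSet.ncard)) G} ≤
      10 ^ 5 * M ^ 2 * sInf {p : ℝ | 0 ≤ p ∧ p ≤ 1 ∧ ∀ H' : H.Subgraph,
          (1 : ℝ) / 2 ≤
            ((⊤ : SimpleGraph (Fin n)).copyCount H'.coe : ℝ) * p ^ H'.edgeSet.ncard} *
        Real.log n := by
  classical
  set Sc : Set ℝ := {p : ℝ | 0 ≤ p ∧ p ≤ 1 ∧ (1 : ℝ) / 2 ≤ ∑ G : SimpleGraph (Fin n),
        Set.indicator {G | H ⊑ G}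
          (fun G => p ^ G.edgeSet.ncard * (1 - p) ^ (n.choose 2 - G.edgeSet.ncard)) G} with hSc
  set SE : Set ℝ := {p : ℝ | 0 ≤ p ∧ p ≤ 1 ∧ ∀ H' : H.Subgraph,
        (1 : ℝ) / 2 ≤
          ((⊤ : SimpleGraph (Fin n)).copyCount H'.coe : ℝ) * p ^ H'.edgeSet.ncard} with hSE
  have hl2 : (0.6931471803 : ℝ) < Real.log 2 := Real.log_two_gt_d9
  have hnR : (2 : ℝ) ≤ n := by exact_mod_cast hn
  have hnpos : (0 : ℝ) < n := by linarith
  have hlogn : Real.log 2 ≤ Real.log n := Real.log_le_log (by norm_num) hnR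
  have hlogpos : 0 < Real.log n := by linarith
  have hM2 : (1 : ℝ) ≤ M ^ 2 := one_le_pow₀ hM
  have hbddc : BddBelow Sc := ⟨0, fun p hp => hp.1⟩
  have hneE : SE.Nonempty := by
    refine ⟨1, zero_le_one, le_rfl, fun H' => ?_⟩
    have h1 : (1 : ℝ) ≤ ((⊤ : SimpleGraph (Fin n)).copyCount H'.coe : ℝ) := by
      exact_mod_cast one_le_copyCount_top_coe H'
    rw [one_pow, mul_one]
    linarith
  have hsE0 : 0 ≤ sInf SE := le_csInf hneE (fun p hp => hp.1)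
  have hkey : ∀ p ∈ SE, sInf Sc ≤ 33360 * M ^ 2 * p * Real.log n := by
    intro p hp
    have hpk : 3 * Real.log n ≤ n * p ^ k := hall p hp.1 hp.2.1 hp.2.2
    have hL1 : (1 : ℝ) ≤ 240 * M ^ 2 := by linarith
    obtain ⟨p', hp'0, hp'1, hp'c, hp'le⟩ :=
      contain_of_labelled hn H (240 * M ^ 2) hL1 p hp.1 hp.2.2
        (graded_hlab hn H k hk1 M hM hk p hp.1 hp.2.1 hpk hp.2.2)
    have hmem : p' ∈ Sc := ⟨hp'0, hp'1, hp'c⟩
    refine le_trans (csInf_le hbddc hmem) (le_trans hp'le ?_)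
    have e : 139 * (240 * M ^ 2) * p * Real.log n = 33360 * M ^ 2 * p * Real.log n := by ring
    rw [e]
  have hC : (0 : ℝ) < 33360 * M ^ 2 * Real.log n := by positivity
  have hmain : sInf Sc ≤ 33360 * M ^ 2 * sInf SE * Real.log n := by
    apply le_of_forall_pos_le_add
    intro ε hε
    set η : ℝ := ε / (33360 * M ^ 2 * Real.log n) with hη
    have hη0 : 0 < η := div_pos hε hC
    obtain ⟨p, hpSE, hplt⟩ := exists_lt_of_csInf_lt hneE (by linarith : sInf SE < sInf SE + η)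
    have h1 := hkey p hpSE
    have h3 : 33360 * M ^ 2 * Real.log n * η = ε := by
      rw [hη]; field_simp
    calc sInf Sc ≤ 33360 * M ^ 2 * p * Real.log n := h1
      _ ≤ 33360 * M ^ 2 * (sInf SE + η) * Real.log n := by
          have : 33360 * M ^ 2 * p ≤ 33360 * M ^ 2 * (sInf SE + η) :=
            mul_le_mul_of_nonneg_left hplt.le (by positivity)
          exact mul_le_mul_of_nonneg_right this hlogpos.le
      _ = 33360 * M ^ 2 * sInf SE * Real.log n + 33360 * M ^ 2 * Real.log n * η := by ring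
      _ = 33360 * M ^ 2 * sInf SE * Real.log n + ε := by rw [h3]
  refine le_trans hmain ?_
  have h5 : (33360 : ℝ) * M ^ 2 * sInf SE ≤ 10 ^ 5 * M ^ 2 * sInf SE := by
    have h6 : (0 : ℝ) ≤ M ^ 2 * sInf SE := by positivity
    nlinarith
  exact mul_le_mul_of_nonneg_right h5 hlogpos.le

/-- **A density-graded bound for the threshold.** Let `H` be a graph on `n ≥ 2` vertices, `k ≥ 1`
an integer and `M ≥ 1` a real number with `log n ≤ M ^ k`. If `n * p_E(n,H) ^ k ≥ 3 log n`, then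
`p_c(n,H) ≤ 10^5 * M^2 * p_E(n,H) * log n`. -/
theorem graded_threshold_le {n : ℕ} (hn : 2 ≤ n) (H : SimpleGraph (Fin n)) (k : ℕ) (hk1 : 1 ≤ k)
    (M : ℝ) (hM : 1 ≤ M) (hk : Real.log n ≤ M ^ k)
    (hdense : 3 * Real.log n ≤ n * (sInf {p : ℝ | 0 ≤ p ∧ p ≤ 1 ∧ ∀ H' : H.Subgraph,
          (1 : ℝ) / 2 ≤
            ((⊤ : SimpleGraph (Fin n)).copyCount H'.coe : ℝ) * p ^ H'.edgeSet.ncard}) ^ k) :
    sInf {p : ℝ | 0 ≤ p ∧ p ≤ 1 ∧ (1 : ℝ) / 2 ≤ ∑ G : SimpleGraph (Fin n),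
        Set.indicator {G | H ⊑ G}
          (fun G => p ^ G.edgeSet.ncard * (1 - p) ^ (n.choose 2 - G.edgeSet.ncard)) G} ≤
      10 ^ 5 * M ^ 2 * sInf {p : ℝ | 0 ≤ p ∧ p ≤ 1 ∧ ∀ H' : H.Subgraph,
          (1 : ℝ) / 2 ≤
            ((⊤ : SimpleGraph (Fin n)).copyCount H'.coe : ℝ) * p ^ H'.edgeSet.ncard} *
        Real.log n := by
  classical
  apply graded_core hn H k hk1 M hM hk
  intro p hp0 hp1 hp
  have hnR : (2 : ℝ) ≤ n := by exact_mod_cast hn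
  have hnpos : (0 : ℝ) < n := by linarith
  set SE : Set ℝ := {p : ℝ | 0 ≤ p ∧ p ≤ 1 ∧ ∀ H' : H.Subgraph,
        (1 : ℝ) / 2 ≤
          ((⊤ : SimpleGraph (Fin n)).copyCount H'.coe : ℝ) * p ^ H'.edgeSet.ncard} with hSE
  have hmem : p ∈ SE := ⟨hp0, hp1, hp⟩
  have hpge : sInf SE ≤ p := csInf_le ⟨0, fun x hx => hx.1⟩ hmem
  have hsE0 : 0 ≤ sInf SE := le_csInf ⟨p, hmem⟩ (fun p hp => hp.1)
  have h1 : (sInf SE) ^ k ≤ p ^ k := pow_le_pow_left₀ hsE0 hpge k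
  have h2 : (n : ℝ) * (sInf SE) ^ k ≤ n * p ^ k := mul_le_mul_of_nonneg_left h1 hnpos.le
  linarith

/-- **The inequality of Q1 for graphs with a dense subgraph.** Let `H` be a graph on `n ≥ 2`
vertices with `9 (log n)^2 ≤ n`, and `k ≥ 1` an integer with `log n ≤ 2 ^ k`. If some vertex set
`A` spans a set `D` of at least `2 k (|A| + 1)` edges of `H`, then
`p_c(n,H) ≤ 4 * 10^5 * p_E(n,H) * log n`. -/
theorem dense_subgraph_threshold_le {n : ℕ} (hn : 2 ≤ n) (H : SimpleGraph (Fin n)) (k : ℕ)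
    (hk1 : 1 ≤ k) (hk : Real.log n ≤ 2 ^ k) (hnlog : 9 * Real.log n ^ 2 ≤ n)
    (A : Finset (Fin n)) (D : Finset (Sym2 (Fin n)))
    (hD : ∀ e ∈ D, e ∈ H.edgeSet ∧ ∀ v ∈ e, v ∈ A)
    (hcard : 2 * k * (A.card + 1) ≤ D.card) :
    sInf {p : ℝ | 0 ≤ p ∧ p ≤ 1 ∧ (1 : ℝ) / 2 ≤ ∑ G : SimpleGraph (Fin n),
        Set.indicator {G | H ⊑ G}
          (fun G => p ^ G.edgeSet.ncard * (1 - p) ^ (n.choose 2 - G.edgeSet.ncard)) G} ≤
      4 * 10 ^ 5 * sInf {p : ℝ | 0 ≤ p ∧ p ≤ 1 ∧ ∀ H' : H.Subgraph,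
          (1 : ℝ) / 2 ≤
            ((⊤ : SimpleGraph (Fin n)).copyCount H'.coe : ℝ) * p ^ H'.edgeSet.ncard} *
        Real.log n := by
  classical
  have hl2 : (0.6931471803 : ℝ) < Real.log 2 := Real.log_two_gt_d9
  have hnR : (2 : ℝ) ≤ n := by exact_mod_cast hn
  have hnpos : (0 : ℝ) < n := by linarith
  have hlogn : Real.log 2 ≤ Real.log n := Real.log_le_log (by norm_num) hnR
  have hlogpos : 0 < Real.log n := by linarith
  have hk' : Real.log n ≤ (2 : ℝ) ^ k := hk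
  have hcore := graded_core hn H k hk1 2 (by norm_num) hk' ?_
  · have e : (10 : ℝ) ^ 5 * 2 ^ 2 = 4 * 10 ^ 5 := by norm_num
    rw [e] at hcore
    exact hcore
  intro p hp0 hp1 hp
  -- the subgraph with edge set `D`
  have hDH : ∀ e ∈ D, e ∈ H.edgeSet := fun e he => (hD e he).1
  have hUe : (SimpleGraph.fromEdgeSet (D : Set (Sym2 (Fin n)))).edgeSet =
      (D : Set (Sym2 (Fin n))) := Vale.Agent.Lib.P064.RG.h23_edgeSet_fromEdgeSet D hDH
  have hUH : SimpleGraph.fromEdgeSet (D : Set (Sym2 (Fin n))) ≤ H := by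
    intro a b hab
    rw [SimpleGraph.fromEdgeSet_adj] at hab
    exact (SimpleGraph.mem_edgeSet H).1 (hDH _ (Finset.mem_coe.1 hab.1))
  set U : SimpleGraph (Fin n) := SimpleGraph.fromEdgeSet (D : Set (Sym2 (Fin n))) with hU
  have h1 := hp (SimpleGraph.toSubgraph (G := H) U hUH)
  have eiso : U ≃g (SimpleGraph.toSubgraph (G := H) U hUH).coe :=
    { toFun := fun v => ⟨v, Set.mem_univ v⟩
      invFun := fun v => v.1
      left_inv := fun _ => rfl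
      right_inv := fun _ => rfl
      map_rel_iff' := Iff.rfl }
  rw [← copyCount_congr _ eiso] at h1
  have h1' : (1 : ℝ) / 2 ≤ ((⊤ : SimpleGraph (Fin n)).copyCount U : ℝ) * p ^ U.edgeSet.ncard :=
    h1
  have hcardU : U.edgeSet.ncard = D.card := by
    rw [hUe, Set.ncard_coe_finset]
  rw [hcardU] at h1'
  have hvA : Vale.Agent.KK.RG.vset D ⊆ A := by
    intro v hv
    unfold Vale.Agent.KK.RG.vset at hv
    simp only [Finset.mem_filter, Finset.mem_univ, true_and] at hv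
    obtain ⟨e, he, hve⟩ := hv
    exact (hD e he).2 v hve
  have h2 : ((⊤ : SimpleGraph (Fin n)).copyCount U : ℝ) ≤ (n : ℝ) ^ A.card := by
    have h3 : (⊤ : SimpleGraph (Fin n)).copyCount U ≤ n ^ (Vale.Agent.KK.RG.vset D).card :=
      Vale.Agent.Lib.P064.RG.h23_copyCount_le D U hUe
    have h4 : n ^ (Vale.Agent.KK.RG.vset D).card ≤ n ^ A.card :=
      Nat.pow_le_pow_right (by omega) (Finset.card_le_card hvA)
    exact_mod_cast h3.trans h4
  -- `1 ≤ n ^ (|A| + 1) * p ^ |D|`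
  have h5 : (1 : ℝ) ≤ (n : ℝ) ^ (A.card + 1) * p ^ D.card := by
    have h6 : (1 : ℝ) / 2 ≤ (n : ℝ) ^ A.card * p ^ D.card :=
      h1'.trans (mul_le_mul_of_nonneg_right h2 (pow_nonneg hp0 _))
    have h7 : (0 : ℝ) ≤ (n : ℝ) ^ A.card * p ^ D.card := by positivity
    rw [pow_succ]
    nlinarith
  -- `p ^ |D| ≤ (p ^ (2 k)) ^ (|A| + 1)`
  have h8 : p ^ D.card ≤ (p ^ (2 * k)) ^ (A.card + 1) := by
    rw [← pow_mul]
    exact pow_le_pow_of_le_one hp0 hp1 hcard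
  have h9 : (1 : ℝ) ≤ ((n : ℝ) * p ^ (2 * k)) ^ (A.card + 1) := by
    rw [mul_pow]
    exact h5.trans (mul_le_mul_of_nonneg_left h8 (by positivity))
  have h10 : (1 : ℝ) ≤ (n : ℝ) * p ^ (2 * k) :=
    one_le_of_one_le_pow (by positivity) (Nat.succ_ne_zero _) h9
  -- `(n p^k)^2 ≥ n ≥ (3 log n)^2`
  have h11 : (3 * Real.log n) ^ 2 ≤ ((n : ℝ) * p ^ k) ^ 2 := by
    have h12 : ((n : ℝ) * p ^ k) ^ 2 = n * ((n : ℝ) * p ^ (2 * k)) := by
      rw [mul_comm 2 k, pow_mul]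
      ring
    rw [h12]
    nlinarith
  have h13 : (0 : ℝ) ≤ (n : ℝ) * p ^ k := by positivity
  have h14 : (0 : ℝ) ≤ 3 * Real.log n := by linarith
  exact (pow_le_pow_iff_left₀ h14 h13 two_ne_zero).1 h11

end Vale.Agent.KK.LS
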