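import Vale.Agent.Lib.P064.ls.Labelled

/-!
# The threshold is at most the expectation threshold times the square of the logarithm
-/

namespace Vale.Agent.KK.LS

open SimpleGraph Finset
open Vale.Agent.KK Vale.Agent.KK.PP Vale.Agent.KK.PF Vale.Agent.KK.RG Vale.Agent.Lib.P064
open Vale.Agent.Lib.P064.LS

/-- The labelled copy-count inequality with `L = 240 log n`, for an admissible density `p`
above `1 / n`. -/
theorem ls_hlab {n : ℕ} (hn : 2 ≤ n) (H : SimpleGraph (Fin n)) (p : ℝ) (hp0 : 0 ≤ p)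
    (hpn : 1 ≤ n * p)
    (hp : ∀ H' : H.Subgraph, (1 : ℝ) / 2 ≤
      ((⊤ : SimpleGraph (Fin n)).copyCount H'.coe : ℝ) * p ^ H'.edgeSet.ncard)
    (F : SimpleGraph (Fin n)) :
    (H.labelledCopyCount F : ℝ) ≤
      (n.factorial : ℝ) * (min 1 (240 * Real.log n * (2 * p))) ^ F.edgeSet.ncard := by
  classical
  have hl2 : (0.6931471803 : ℝ) < Real.log 2 := Real.log_two_gt_d9
  have hnR : (2 : ℝ) ≤ n := by exact_mod_cast hn
  have hnpos : (0 : ℝ) < n := by linarith
  have hlogn : Real.log 2 ≤ Real.log n := Real.log_le_log (by norm_num) hnR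
  have hppos : 0 < p := by
    rcases hp0.lt_or_eq with h | h
    · exact h
    · exfalso
      rw [← h, mul_zero] at hpn
      linarith
  have hyp : SubgraphsExpected n H (2 * p) := subgraphsExpected_two_mul H p hp0 hp
  by_cases h4 : 2 * (2 * p) ≤ 1
  · have key := labelled_desc hn H (q := 2 * p) (by positivity) h4 (by nlinarith) hyp F
    have e : 240 * (2 * p) * Real.log n = 240 * Real.log n * (2 * p) := by ring
    rw [e] at key
    exact key
  · rw [not_le] at h4
    have h1 : (1 : ℝ) ≤ 240 * Real.log n * (2 * p) := by nlinarith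
    rw [min_eq_left h1, one_pow, mul_one]
    have h2 := labelled_le_top H F
    rw [labelledCopyCount_top, Fintype.card_fin, Nat.descFactorial_self] at h2
    exact_mod_cast h2

/-- **The threshold of every graph, up to the square of the logarithm.** For every graph `H` on
`n ≥ 2` vertices, `p_c(n,H) ≤ 10^126 * p_E(n,H) * (log n)^2`. -/
theorem log_sq_threshold_le {n : ℕ} (hn : 2 ≤ n) (H : SimpleGraph (Fin n)) :
    sInf {p : ℝ | 0 ≤ p ∧ p ≤ 1 ∧ (1 : ℝ) / 2 ≤ ∑ G : SimpleGraph (Fin n),
        Set.indicator {G | H ⊑ G}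
          (fun G => p ^ G.edgeSet.ncard * (1 - p) ^ (n.choose 2 - G.edgeSet.ncard)) G} ≤
      10 ^ 126 * sInf {p : ℝ | 0 ≤ p ∧ p ≤ 1 ∧ ∀ H' : H.Subgraph,
          (1 : ℝ) / 2 ≤
            ((⊤ : SimpleGraph (Fin n)).copyCount H'.coe : ℝ) * p ^ H'.edgeSet.ncard} *
        Real.log n ^ 2 := by
  classical
  set Sc : Set ℝ := {p : ℝ | 0 ≤ p ∧ p ≤ 1 ∧ (1 : ℝ) / 2 ≤ ∑ G : SimpleGraph (Fin n),
        Set.indicator {G | H ⊑ G}
          (fun G => p ^ G.edgeSet.ncard * (1 - p) ^ (n.choose 2 - G.edgeSet.ncard)) G} with hSc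
  set SE : Set ℝ := {p : ℝ | 0 ≤ p ∧ p ≤ 1 ∧ ∀ H' : H.Subgraph,
        (1 : ℝ) / 2 ≤
          ((⊤ : SimpleGraph (Fin n)).copyCount H'.coe : ℝ) * p ^ H'.edgeSet.ncard} with hSE
  have hl2 : (0.6931471803 : ℝ) < Real.log 2 := Real.log_two_gt_d9
  have hnR : (2 : ℝ) ≤ n := by exact_mod_cast hn
  have hnpos : (0 : ℝ) < n := by linarith
  have hlogn : Real.log 2 ≤ Real.log n := Real.log_le_log (by norm_num) hnR
  have hlogpos : 0 < Real.log n := by linarith
  have hbddc : BddBelow Sc := ⟨0, fun p hp => hp.1⟩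
  have hneE : SE.Nonempty := by
    refine ⟨1, zero_le_one, le_rfl, fun H' => ?_⟩
    have h1 : (1 : ℝ) ≤ ((⊤ : SimpleGraph (Fin n)).copyCount H'.coe : ℝ) := by
      exact_mod_cast one_le_copyCount_top_coe H'
    rw [one_pow, mul_one]
    linarith
  have hsE0 : 0 ≤ sInf SE := le_csInf hneE (fun p hp => hp.1)
  by_cases hcase : sInf SE ≤ 1 / n
  · -- the sparse regime: the earlier theorem with K = 1
    obtain ⟨L, hL1, hLb, hmain⟩ := regime_core 1 le_rfl
    have h1 := hmain n H hn hcase
    refine le_trans h1 ?_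
    have hexp : Real.exp (236 * 1) ≤ 10 ^ 103 := by
      rw [mul_one]; exact exp_236_le
    have hL : 139 * L ≤ 10 ^ 125 := by
      calc 139 * L ≤ 139 * (10 ^ 19 * Real.exp (236 * 1)) := by linarith
        _ ≤ 139 * (10 ^ 19 * 10 ^ 103) := by
            have : (10 : ℝ) ^ 19 * Real.exp (236 * 1) ≤ 10 ^ 19 * 10 ^ 103 :=
              mul_le_mul_of_nonneg_left hexp (by positivity)
            linarith
        _ = 139 * 10 ^ 122 := by ring
        _ ≤ 10 ^ 125 := by norm_num
    have hlog2 : Real.log n ≤ 10 * Real.log n ^ 2 := by nlinarith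
    calc 139 * L * sInf SE * Real.log n ≤ 10 ^ 125 * sInf SE * Real.log n := by
          have := mul_le_mul_of_nonneg_right hL hsE0
          exact mul_le_mul_of_nonneg_right this hlogpos.le
      _ ≤ 10 ^ 125 * sInf SE * (10 * Real.log n ^ 2) := by
          apply mul_le_mul_of_nonneg_left hlog2
          exact mul_nonneg (pow_nonneg (by norm_num) _) hsE0
      _ = 10 ^ 126 * sInf SE * Real.log n ^ 2 := by ring
  · -- the dense regime: the new copy-count inequality
    rw [not_le] at hcase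
    have hkey : ∀ p ∈ SE, sInf Sc ≤ 33360 * p * Real.log n ^ 2 := by
      intro p hp
      have hpge : sInf SE ≤ p := csInf_le ⟨0, fun x hx => hx.1⟩ hp
      have hpn : 1 ≤ (n : ℝ) * p := by
        have h1 : 1 / (n : ℝ) < p := lt_of_lt_of_le hcase hpge
        have h2 := (div_lt_iff₀ hnpos).1 h1
        linarith
      have hL1 : (1 : ℝ) ≤ 240 * Real.log n := by linarith
      obtain ⟨p', hp'0, hp'1, hp'c, hp'le⟩ :=
        contain_of_labelled hn H (240 * Real.log n) hL1 p hp.1 hp.2.2
          (ls_hlab hn H p hp.1 hpn hp.2.2)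
      have hmem : p' ∈ Sc := ⟨hp'0, hp'1, hp'c⟩
      refine le_trans (csInf_le hbddc hmem) (le_trans hp'le ?_)
      have e : 139 * (240 * Real.log n) * p * Real.log n = 33360 * p * Real.log n ^ 2 := by ring
      rw [e]
    have hC : (0 : ℝ) < 33360 * Real.log n ^ 2 := by positivity
    have hmain : sInf Sc ≤ 33360 * sInf SE * Real.log n ^ 2 := by
      apply le_of_forall_pos_le_add
      intro ε hε
      set η : ℝ := ε / (33360 * Real.log n ^ 2) with hη
      have hη0 : 0 < η := div_pos hε hC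
      obtain ⟨p, hpSE, hplt⟩ := exists_lt_of_csInf_lt hneE (by linarith : sInf SE < sInf SE + η)
      have h1 := hkey p hpSE
      have h3 : 33360 * Real.log n ^ 2 * η = ε := by
        rw [hη]; field_simp
      calc sInf Sc ≤ 33360 * p * Real.log n ^ 2 := h1
        _ ≤ 33360 * (sInf SE + η) * Real.log n ^ 2 := by
            have : 33360 * p ≤ 33360 * (sInf SE + η) := by linarith
            exact mul_le_mul_of_nonneg_right this (by positivity)
        _ = 33360 * sInf SE * Real.log n ^ 2 + 33360 * Real.log n ^ 2 * η := by ring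
        _ = 33360 * sInf SE * Real.log n ^ 2 + ε := by rw [h3]
    refine le_trans hmain ?_
    have : (33360 : ℝ) * sInf SE ≤ 10 ^ 126 * sInf SE := by
      apply mul_le_mul_of_nonneg_right _ hsE0
      norm_num
    exact mul_le_mul_of_nonneg_right this (by positivity)

/-- **The copy-count inequality with a logarithmic factor, for all patterns.** If every subgraph
of `H` has expected count at least one at density `q`, then for every graph `F` on the same
vertex set, `N(H,F) ≤ N(K_n,F) * min(1, 10^124 q log n)^{e(F)}`. -/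
theorem copyCount_log_le {n : ℕ} (hn : 2 ≤ n) (H : SimpleGraph (Fin n)) (q : ℝ) (hq0 : 0 ≤ q)
    (h : ∀ H' : H.Subgraph,
      1 ≤ ((⊤ : SimpleGraph (Fin n)).copyCount H'.coe : ℝ) * q ^ H'.edgeSet.ncard)
    (F : SimpleGraph (Fin n)) :
    (H.copyCount F : ℝ) ≤ ((⊤ : SimpleGraph (Fin n)).copyCount F : ℝ) *
      (min 1 (10 ^ 124 * q * Real.log n)) ^ F.edgeSet.ncard := by
  classical
  have hl2 : (0.6931471803 : ℝ) < Real.log 2 := Real.log_two_gt_d9
  have hnR : (2 : ℝ) ≤ n := by exact_mod_cast hn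
  have hnpos : (0 : ℝ) < n := by linarith
  have hlogn : Real.log 2 ≤ Real.log n := Real.log_le_log (by norm_num) hnR
  have hhalf : ∀ H' : H.Subgraph, (1 : ℝ) / 2 ≤
      ((⊤ : SimpleGraph (Fin n)).copyCount H'.coe : ℝ) * q ^ H'.edgeSet.ncard := by
    intro H'
    have := h H'
    linarith
  have hlab : (H.labelledCopyCount F : ℝ) ≤
      (n.factorial : ℝ) * (min 1 (10 ^ 124 * q * Real.log n)) ^ F.edgeSet.ncard := by
    by_cases hcase : 1 ≤ (n : ℝ) * q
    · refine le_trans (ls_hlab hn H q hq0 hcase hhalf F) ?_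
      apply mul_le_mul_of_nonneg_left _ (Nat.cast_nonneg _)
      apply pow_le_pow_left₀ (le_min zero_le_one (by positivity))
      apply min_le_min le_rfl
      have h1 : (480 : ℝ) ≤ 10 ^ 124 := by norm_num
      have h2 : 0 ≤ q * Real.log n := mul_nonneg hq0 (by linarith)
      calc 240 * Real.log n * (2 * q) = 480 * (q * Real.log n) := by ring
        _ ≤ 10 ^ 124 * (q * Real.log n) := mul_le_mul_of_nonneg_right h1 h2
        _ = 10 ^ 124 * q * Real.log n := by ring
    · rw [not_le] at hcase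
      obtain ⟨L, hL1, hLb, hmain⟩ := regime_hlab 1 le_rfl
      have hq2 : q ≤ 2 * 1 / n := by
        rw [le_div_iff₀ hnpos]
        linarith
      refine le_trans (hmain n H q hn hq0 hq2 hhalf F) ?_
      apply mul_le_mul_of_nonneg_left _ (Nat.cast_nonneg _)
      apply pow_le_pow_left₀ (le_min zero_le_one (by positivity))
      apply min_le_min le_rfl
      have hexp : Real.exp (236 * 1) ≤ 10 ^ 103 := by
        rw [mul_one]; exact exp_236_le
      have hL : L ≤ 10 ^ 122 := by
        calc L ≤ 10 ^ 19 * Real.exp (236 * 1) := hLb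
          _ ≤ 10 ^ 19 * 10 ^ 103 := mul_le_mul_of_nonneg_left hexp (by norm_num)
          _ = 10 ^ 122 := by norm_num
      have h3 : (2 : ℝ) * 10 ^ 122 ≤ 10 ^ 124 * Real.log n := by
        have h4 : (10 : ℝ) ^ 124 = 100 * 10 ^ 122 := by norm_num
        rw [h4]
        have h5 : (0 : ℝ) < 10 ^ 122 := by norm_num
        nlinarith
      calc L * (2 * q) ≤ 10 ^ 122 * (2 * q) := mul_le_mul_of_nonneg_right hL (by linarith)
        _ = (2 * 10 ^ 122) * q := by ring
        _ ≤ (10 ^ 124 * Real.log n) * q := mul_le_mul_of_nonneg_right h3 hq0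
        _ = 10 ^ 124 * q * Real.log n := by ring
  have htop : (⊤ : SimpleGraph (Fin n)).labelledCopyCount F = n.factorial := by
    rw [labelledCopyCount_top, Fintype.card_fin, Nat.descFactorial_self]
  apply copyCount_le_of_labelled H (⊤ : SimpleGraph (Fin n)) F
  rw [htop]
  exact hlab

end Vale.Agent.KK.LS
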